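import Mathlib

/-!
A continuous submodular function on `V → ℝ` which is invariant under the addition of constants is
convex (midpoint form).
-/

open Filter Topology

namespace Vale.Agent.P159.TM.H871

variable {V : Type*}

/-- one step: the pair `(p, q)` is replaced by a pair with the same sum -/
noncomputable def stp (α : ℝ) (w : (V → ℝ) × (V → ℝ)) : (V → ℝ) × (V → ℝ) :=
  ((fun x => min (w.1 x + α) (w.2 x)), fun x => max (w.1 x) (w.2 x - α))

lemma stp_sum (α : ℝ) (w : (V → ℝ) × (V → ℝ)) (x : V) :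
    (stp α w).1 x + (stp α w).2 x = w.1 x + w.2 x := by
  simp only [stp]
  rcases le_total (w.1 x + α) (w.2 x) with h | h
  · rw [min_eq_left h, max_eq_right (by linarith)]
    ring
  · rw [min_eq_right h, max_eq_left (by linarith)]
    ring

/-- two steps halve the bound of the difference -/
lemma stp_bd {D : ℝ} (w : (V → ℝ) × (V → ℝ)) (h : ∀ x, |w.2 x - w.1 x| ≤ D)
    (x : V) : |(stp (D / 2) (stp (D / 2) w)).2 x - (stp (D / 2) (stp (D / 2) w)).1 x| ≤ D / 2 := by
  obtain ⟨h1, h2⟩ := abs_le.1 (h x)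
  simp only [stp]
  have hD : 0 ≤ D := (abs_nonneg _).trans (h x)
  rw [abs_le]
  rcases le_total (w.1 x + D / 2) (w.2 x) with h3 | h3
  · rw [min_eq_left h3, max_eq_right (show w.1 x ≤ w.2 x - D / 2 by linarith)]
    rcases le_total (w.1 x + D / 2 + D / 2) (w.2 x - D / 2) with h4 | h4
    · rw [min_eq_left h4, max_eq_right (show w.1 x + D / 2 ≤ w.2 x - D / 2 - D / 2 by linarith)]
      constructor <;> linarith
    · rw [min_eq_right h4, max_eq_left (show w.2 x - D / 2 - D / 2 ≤ w.1 x + D / 2 by linarith)]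
      constructor <;> linarith
  · rw [min_eq_right h3, max_eq_left (show w.2 x - D / 2 ≤ w.1 x by linarith)]
    rcases le_total (w.2 x + D / 2) (w.1 x) with h4 | h4
    · rw [min_eq_left h4, max_eq_right (show w.2 x ≤ w.1 x - D / 2 by linarith)]
      constructor <;> linarith
    · rw [min_eq_right h4, max_eq_left (show w.1 x - D / 2 ≤ w.2 x by linarith)]
      constructor <;> linarith

variable {G : (V → ℝ) → ℝ}

lemma stp_le (hsub : ∀ f g, G (f ⊔ g) + G (f ⊓ g) ≤ G f + G g)
    (hc : ∀ f (s : ℝ), G (fun x => f x + s) = G f) (α : ℝ) (w : (V → ℝ) × (V → ℝ)) :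
    G (stp α w).1 + G (stp α w).2 ≤ G w.1 + G w.2 := by
  have h := hsub (fun x => w.1 x + α) w.2
  have e1 : ((fun x => w.1 x + α) ⊓ w.2 : V → ℝ) = (stp α w).1 := rfl
  have e2 : ((fun x => w.1 x + α) ⊔ w.2 : V → ℝ) = fun x => (stp α w).2 x + α := by
    funext x
    simp only [stp, Pi.sup_apply]
    rcases le_total (w.1 x + α) (w.2 x) with h | h
    · rw [sup_of_le_right h, max_eq_right (by linarith)]
      ring
    · rw [sup_of_le_left h, max_eq_left (by linarith)]
  rw [e1, e2, hc, hc] at h
  linarith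

/-- **submodular + invariant under constants + continuous implies midpoint convex** -/
theorem midconvex [Fintype V] (hcont : Continuous G)
    (hsub : ∀ f g, G (f ⊔ g) + G (f ⊓ g) ≤ G f + G g)
    (hc : ∀ f (s : ℝ), G (fun x => f x + s) = G f) (p u : V → ℝ) :
    2 * G p ≤ G (p + u) + G (p - u) := by
  classical
  obtain ⟨D, hD⟩ : ∃ D : ℝ, ∀ x, |(p - u) x - (p + u) x| ≤ D :=
    ⟨∑ x, |(p - u) x - (p + u) x|, fun x =>
      Finset.single_le_sum (f := fun x => |(p - u) x - (p + u) x|) (fun y _ => abs_nonneg _)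
        (Finset.mem_univ x)⟩
  -- the sequence of pairs
  let w : ℕ → (V → ℝ) × (V → ℝ) := fun n => Nat.rec (p + u, p - u)
    (fun n w => stp (D / 2 ^ n / 2) (stp (D / 2 ^ n / 2) w)) n
  have w0 : w 0 = (p + u, p - u) := rfl
  have ws : ∀ n, w (n + 1) = stp (D / 2 ^ n / 2) (stp (D / 2 ^ n / 2) (w n)) := fun n => rfl
  have hsum : ∀ n x, (w n).1 x + (w n).2 x = 2 * p x := by
    intro n
    induction n with
    | zero =>
      intro x
      rw [w0]
      simp only [Pi.add_apply, Pi.sub_apply]
      ring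
    | succ n ih =>
      intro x
      rw [ws, stp_sum, stp_sum, ih]
  have hbd : ∀ n x, |(w n).2 x - (w n).1 x| ≤ D / 2 ^ n := by
    intro n
    induction n with
    | zero =>
      intro x
      rw [w0, pow_zero, div_one]
      exact hD x
    | succ n ih =>
      intro x
      rw [ws, pow_succ, ← div_div]
      exact stp_bd (w n) ih x
  have hle : ∀ n, G (w n).1 + G (w n).2 ≤ G (p + u) + G (p - u) := by
    intro n
    induction n with
    | zero => exact le_rfl
    | succ n ih =>
      rw [ws]
      exact ((stp_le hsub hc _ _).trans (stp_le hsub hc _ _)).trans ih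
  have hlim : Tendsto (fun n : ℕ => D / 2 ^ n) atTop (𝓝 0) := by
    have h1 : Tendsto (fun n : ℕ => ((1 : ℝ) / 2) ^ n) atTop (𝓝 0) :=
      tendsto_pow_atTop_nhds_zero_of_lt_one (by norm_num) (by norm_num)
    have h2 := h1.const_mul D
    rw [mul_zero] at h2
    refine h2.congr fun n => ?_
    rw [one_div, inv_pow, div_eq_mul_inv]
  have t1 : Tendsto (fun n => (w n).1) atTop (𝓝 p) := by
    rw [tendsto_pi_nhds]
    intro x
    rw [tendsto_iff_norm_sub_tendsto_zero]
    refine squeeze_zero (fun n => norm_nonneg _) (fun n => ?_) hlim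
    rw [Real.norm_eq_abs]
    have h1 := abs_le.1 (hbd n x)
    have h2 := hsum n x
    rw [abs_le]
    constructor <;> linarith [h1.1, h1.2]
  have t2 : Tendsto (fun n => (w n).2) atTop (𝓝 p) := by
    rw [tendsto_pi_nhds]
    intro x
    rw [tendsto_iff_norm_sub_tendsto_zero]
    refine squeeze_zero (fun n => norm_nonneg _) (fun n => ?_) hlim
    rw [Real.norm_eq_abs]
    have h1 := abs_le.1 (hbd n x)
    have h2 := hsum n x
    rw [abs_le]
    constructor <;> linarith [h1.1, h1.2]
  have t3 := ((hcont.tendsto p).comp t1).add ((hcont.tendsto p).comp t2)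
  have := le_of_tendsto' t3 hle
  linarith

end Vale.Agent.P159.TM.H871
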