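import Vale.Agent.P159.TM.H871.Gs
import Vale.Agent.P159.TM.H871.Conv

/-!
Rows E1 and UBAR of P159: `Ub(f) = ∫₀¹ U(f+s) ds` is convex (height FKG), the oscillation of
`s ↦ U(f+s)` is at most `K/4`, and `U(f+u) + U(f-u) - 2 U(f) ≥ -K` for all real backgrounds,
`K = <1, U''(0) 1>`.
-/

open Filter Topology Finset MeasureTheory

namespace Vale.Agent.P159.TM.H871

variable {V : Type*} [Fintype V] {W : (V → ℤ) → ℝ} {m : V → ℝ}

/-! ### submodularity -/

section four

variable {H : Type*} [DistribLattice H]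

theorem four_tsum {f1 f2 f3 f4 : H → ℝ} (h1 : ∀ x, 0 ≤ f1 x) (h2 : ∀ x, 0 ≤ f2 x)
    (h3 : ∀ x, 0 ≤ f3 x) (h4 : ∀ x, 0 ≤ f4 x) (s1 : Summable f1) (s2 : Summable f2)
    (s3 : Summable f3) (s4 : Summable f4)
    (h : ∀ a b, f1 a * f2 b ≤ f3 (a ⊓ b) * f4 (a ⊔ b)) :
    (∑' x, f1 x) * ∑' x, f2 x ≤ (∑' x, f3 x) * ∑' x, f4 x := by
  classical
  have t1 : Tendsto (fun s : Finset H => ∑ x ∈ s, f1 x) atTop (𝓝 (∑' x, f1 x)) := s1.hasSum
  have t2 : Tendsto (fun s : Finset H => ∑ x ∈ s, f2 x) atTop (𝓝 (∑' x, f2 x)) := s2.hasSum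
  refine le_of_tendsto' (t1.mul t2) fun s => ?_
  refine (four_functions_theorem f1 f2 f3 f4 h1 h2 h3 h4 h s s).trans ?_
  exact mul_le_mul (s3.sum_le_tsum _ fun x _ => h3 x) (s4.sum_le_tsum _ fun x _ => h4 x)
    (Finset.sum_nonneg fun x _ => h4 x) (tsum_nonneg h3)

end four

lemma sq_site (a b s t : ℝ) :
    (min a b - min s t) ^ 2 + (max a b - max s t) ^ 2 ≤ (a - s) ^ 2 + (b - t) ^ 2 := by
  rcases le_total a b with h1 | h1 <;> rcases le_total s t with h2 | h2
  · rw [min_eq_left h1, max_eq_right h1, min_eq_left h2, max_eq_right h2]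
  · rw [min_eq_left h1, max_eq_right h1, min_eq_right h2, max_eq_left h2]
    nlinarith [mul_nonneg (sub_nonneg.2 h1) (sub_nonneg.2 h2)]
  · rw [min_eq_right h1, max_eq_left h1, min_eq_left h2, max_eq_right h2]
    nlinarith [mul_nonneg (sub_nonneg.2 h1) (sub_nonneg.2 h2)]
  · rw [min_eq_right h1, max_eq_left h1, min_eq_right h2, max_eq_left h2]
    linarith

lemma gs_four (hm : ∀ x, 0 < m x) (f g : V → ℝ) (a b : V → ℤ) :
    gs m f a * gs m g b ≤ gs m (f ⊓ g) (a ⊓ b) * gs m (f ⊔ g) (a ⊔ b) := by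
  unfold gs
  rw [← Real.exp_add, ← Real.exp_add]
  apply Real.exp_le_exp.2
  rw [← neg_add, ← neg_add, neg_le_neg_iff, ← Finset.sum_add_distrib, ← Finset.sum_add_distrib]
  refine Finset.sum_le_sum fun x _ => ?_
  simp only [Pi.inf_apply, Pi.sup_apply]
  have h := sq_site (a x : ℝ) (b x) (f x) (g x)
  have e1 : (((a x ⊓ b x : ℤ)) : ℝ) = min (a x : ℝ) (b x) := by
    rw [← Int.cast_min]
  have e2 : (((a x ⊔ b x : ℤ)) : ℝ) = max (a x : ℝ) (b x) := by
    rw [← Int.cast_max]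
  rw [e1, e2]
  change m x / 2 * (min (a x : ℝ) (b x) - min (f x) (g x)) ^ 2 +
    m x / 2 * (max (a x : ℝ) (b x) - max (f x) (g x)) ^ 2 ≤ _
  nlinarith [mul_le_mul_of_nonneg_left h (half_pos (hm x)).le]

/-- the height lattice condition of the weight -/
def Sup (W : (V → ℤ) → ℝ) : Prop := ∀ a b, W a * W b ≤ W (a ⊓ b) * W (a ⊔ b)

/-- `Z` is log-supermodular in the background -/
theorem Z_four (hW : Wt W) (hm : ∀ x, 0 < m x) (hS : Sup W) (f g : V → ℝ) :
    Z W m f * Z W m g ≤ Z W m (f ⊓ g) * Z W m (f ⊔ g) := by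
  unfold Z
  refine four_tsum (fun h => mul_nonneg (hW.nonneg h) (gs_pos m f h).le)
    (fun h => mul_nonneg (hW.nonneg h) (gs_pos m g h).le)
    (fun h => mul_nonneg (hW.nonneg h) (gs_pos m _ h).le)
    (fun h => mul_nonneg (hW.nonneg h) (gs_pos m _ h).le)
    (hW.summable hm f) (hW.summable hm g) (hW.summable hm _) (hW.summable hm _) fun a b => ?_
  calc W a * gs m f a * (W b * gs m g b) = W a * W b * (gs m f a * gs m g b) := by ring
    _ ≤ W (a ⊓ b) * W (a ⊔ b) * (gs m (f ⊓ g) (a ⊓ b) * gs m (f ⊔ g) (a ⊔ b)) :=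
        mul_le_mul (hS a b) (gs_four hm f g a b)
          (mul_nonneg (gs_pos m f a).le (gs_pos m g b).le)
          (mul_nonneg (hW.nonneg _) (hW.nonneg _))
    _ = _ := by ring

theorem U_sub (hW : Wt W) (hm : ∀ x, 0 < m x) (hS : Sup W) (f g : V → ℝ) :
    U W m (f ⊔ g) + U W m (f ⊓ g) ≤ U W m f + U W m g := by
  have h := Z_four hW hm hS f g
  have p0 := hW.Z_pos hm 0
  have pf := hW.Z_pos hm f
  have pg := hW.Z_pos hm g
  have pi := hW.Z_pos hm (f ⊓ g)
  have ps := hW.Z_pos hm (f ⊔ g)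
  unfold U
  rw [Real.log_div ps.ne' p0.ne', Real.log_div pi.ne' p0.ne', Real.log_div pf.ne' p0.ne',
    Real.log_div pg.ne' p0.ne']
  have h2 := Real.log_le_log (mul_pos pf pg) h
  rw [Real.log_mul pf.ne' pg.ne', Real.log_mul pi.ne' ps.ne'] at h2
  linarith

/-! ### the average over constants -/

/-- `Ub(f) = ∫₀¹ U(f+s) ds` -/
noncomputable def Ub (W : (V → ℤ) → ℝ) (m : V → ℝ) (f : V → ℝ) : ℝ :=
  ∫ s in (0 : ℝ)..1, U W m fun x => f x + s

lemma cont_shift (hW : Wt W) (hm : ∀ x, 0 < m x) (f : V → ℝ) :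
    Continuous fun s : ℝ => U W m fun x => f x + s :=
  (hW.continuous_U hm).comp (by fun_prop)

lemma U_shift (hs : ∀ h, W (h + 1) = W h) (f : V → ℝ) :
    U W m (fun x => f x + 1) = U W m f := by
  rw [U, U, Z_shift hs]

lemma per_shift (hs : ∀ h, W (h + 1) = W h) (f : V → ℝ) :
    Function.Periodic (fun s : ℝ => U W m fun x => f x + s) 1 := by
  intro s
  have := U_shift (m := m) hs fun x => f x + s
  simp only [add_assoc] at this ⊢
  exact this

lemma Ub_cont (hW : Wt W) (hm : ∀ x, 0 < m x) : Continuous (Ub W m) := by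
  unfold Ub
  refine intervalIntegral.continuous_parametric_intervalIntegral_of_continuous' ?_ 0 1
  exact (hW.continuous_U hm).comp (by fun_prop)

lemma Ub_add_const (hs : ∀ h, W (h + 1) = W h) (f : V → ℝ) (t : ℝ) :
    Ub W m (fun x => f x + t) = Ub W m f := by
  unfold Ub
  have h1 : ∀ s : ℝ, (U W m fun x => f x + t + s) =
      (fun s : ℝ => U W m fun x => f x + s) (s + t) := by
    intro s
    simp only
    congr 1
    funext x
    ring
  simp only [h1]
  rw [intervalIntegral.integral_comp_add_right (fun s : ℝ => U W m fun x => f x + s) t,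
    zero_add, add_comm 1 t]
  rw [(per_shift hs f).intervalIntegral_add_eq t 0, zero_add]

lemma Ub_sub (hW : Wt W) (hm : ∀ x, 0 < m x) (hS : Sup W) (f g : V → ℝ) :
    Ub W m (f ⊔ g) + Ub W m (f ⊓ g) ≤ Ub W m f + Ub W m g := by
  unfold Ub
  rw [← intervalIntegral.integral_add ((cont_shift hW hm _).intervalIntegrable _ _)
    ((cont_shift hW hm _).intervalIntegrable _ _),
    ← intervalIntegral.integral_add ((cont_shift hW hm _).intervalIntegrable _ _)
    ((cont_shift hW hm _).intervalIntegrable _ _)]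
  refine intervalIntegral.integral_mono_on zero_le_one
    (((cont_shift hW hm _).add (cont_shift hW hm _)).intervalIntegrable _ _)
    (((cont_shift hW hm _).add (cont_shift hW hm _)).intervalIntegrable _ _) fun s _ => ?_
  have e1 : (fun x => (f ⊔ g) x + s) = (fun x => f x + s) ⊔ fun x => g x + s := by
    funext x
    simp only [Pi.sup_apply]
    exact (max_add_add_right (f x) (g x) s).symm
  have e2 : (fun x => (f ⊓ g) x + s) = (fun x => f x + s) ⊓ fun x => g x + s := by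
    funext x
    simp only [Pi.inf_apply]
    exact (min_add_add_right (f x) (g x) s).symm
  rw [e1, e2]
  exact U_sub hW hm hS _ _

/-- **UBAR**: midpoint convexity of `Ub` -/
theorem Ub_mid (hW : Wt W) (hm : ∀ x, 0 < m x) (hS : Sup W) (hs : ∀ h, W (h + 1) = W h)
    (p u : V → ℝ) : 2 * Ub W m p ≤ Ub W m (p + u) + Ub W m (p - u) :=
  midconvex (Ub_cont hW hm) (Ub_sub hW hm hS) (Ub_add_const hs) p u

/-! ### the oscillation -/

/-- the inequality of Ginibre for the backgrounds: `U(f+g) + U(f-g) ≤ 2 U(f) + 2 U(g)` -/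
def Gin (W : (V → ℤ) → ℝ) (m : V → ℝ) : Prop :=
  ∀ f g : V → ℝ, Z W m f ^ 2 * Z W m g ^ 2 ≤ Z W m (f + g) * Z W m (f - g) * Z W m 0 ^ 2

lemma Gin.U_le (hW : Wt W) (hm : ∀ x, 0 < m x) (hG : Gin W m) (f g : V → ℝ) :
    U W m (f + g) + U W m (f - g) ≤ 2 * U W m f + 2 * U W m g := by
  have h := hG f g
  have p0 := hW.Z_pos hm 0
  have pf := hW.Z_pos hm f
  have pg := hW.Z_pos hm g
  have pi := hW.Z_pos hm (f + g)
  have ps := hW.Z_pos hm (f - g)
  unfold U
  rw [Real.log_div ps.ne' p0.ne', Real.log_div pi.ne' p0.ne', Real.log_div pf.ne' p0.ne',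
    Real.log_div pg.ne' p0.ne']
  have h2 := Real.log_le_log (by positivity) h
  rw [Real.log_mul (by positivity) (by positivity), Real.log_mul (by positivity) (by positivity),
    Real.log_mul (by positivity) (by positivity), Real.log_pow, Real.log_pow, Real.log_pow] at h2
  push_cast at h2
  linarith

lemma gin_half (hW : Wt W) (hm : ∀ x, 0 < m x) (hG : Gin W m) (g : V → ℝ) :
    U W m (2 • g) ≤ 4 * U W m g := by
  have h := hG.U_le hW hm g g
  rw [sub_self, hW.U_zero hm, ← two_smul ℕ g] at h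
  linarith

lemma U_nonneg_of (hW : Wt W) (hm : ∀ x, 0 < m x)
    (hle : ∀ f, Z W m f ≤ Z W m 0) (f : V → ℝ) : 0 ≤ U W m f := by
  unfold U
  rw [Left.nonneg_neg_iff]
  refine Real.log_nonpos (div_pos (hW.Z_pos hm f) (hW.Z_pos hm 0)).le ?_
  rw [div_le_one (hW.Z_pos hm 0)]
  exact hle f

/-- **E1, oscillation**: if `U(s) ≤ K s²/2` for constants then `s ↦ U(f+s)` oscillates by at most
`K/4`, for every real background -/
theorem osc_le (hW : Wt W) (hm : ∀ x, 0 < m x) (hs : ∀ h, W (h + 1) = W h) (hG : Gin W m)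
    {K : ℝ} (hK : ∀ s : ℝ, U W m (fun _ => s) ≤ K * s ^ 2 / 2) (f : V → ℝ) (s t : ℝ) :
    U W m (fun x => f x + s) ≤ U W m (fun x => f x + t) + K / 4 := by
  have hK0 : 0 ≤ K := by
    -- `U(1) = 0` and `U(1/2)`: use `s = 1`
    have h1 := hK 1
    have h2 : U W m (fun _ => (1 : ℝ)) = 0 := by
      have := U_shift (m := m) hs (fun _ => (0 : ℝ))
      simp only [zero_add] at this
      rw [this]
      exact hW.U_zero hm
    rw [h2] at h1
    linarith
  have hc := cont_shift hW hm f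
  have hp := per_shift (m := m) hs f
  -- a minimum
  obtain ⟨s0, -, hs0⟩ := (isCompact_Icc (a := (0 : ℝ)) (b := 1)).exists_isMinOn
    (Set.nonempty_Icc.2 zero_le_one) hc.continuousOn
  have hmin : ∀ r : ℝ, U W m (fun x => f x + s0) ≤ U W m fun x => f x + r := by
    intro r
    obtain ⟨y, hy, hy2⟩ := hp.exists_mem_Ico₀ one_pos r
    have hy3 : (U W m fun x => f x + r) = U W m fun x => f x + y := hy2
    rw [hy3]
    exact hs0 (Set.Ico_subset_Icc_self hy)
  -- reduce `s - s0` to `[-1/2, 1/2]`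
  obtain ⟨n, hn⟩ : ∃ n : ℤ, |s - s0 - n| ≤ 1 / 2 := ⟨round (s - s0), abs_sub_round _⟩
  set r := s - s0 - n with hr
  have h1 := hG.U_le hW hm (fun x => f x + s0) (fun _ => r)
  have e1 : U W m ((fun x => f x + s0) + fun _ => r) = U W m fun x => f x + s := by
    have e : (U W m fun x => f x + (s0 + r + n * 1)) = U W m fun x => f x + (s0 + r) :=
      (hp.int_mul n) (s0 + r)
    have e2 : s0 + r + n * 1 = s := by rw [hr]; ring
    rw [e2] at e
    rw [e]
    congr 1
    funext x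
    simp only [Pi.add_apply]
    ring
  have e2 : U W m (fun x => f x + s0) ≤ U W m ((fun x => f x + s0) - fun _ => r) := by
    have := hmin (s0 - r)
    refine this.trans_eq ?_
    congr 1
    funext x
    simp only [Pi.sub_apply]
    ring
  rw [e1] at h1
  have h2 := hK r
  have h3 : r ^ 2 ≤ 1 / 4 := by
    have := sq_abs r
    nlinarith [abs_nonneg r]
  have h4 := hmin t
  nlinarith [mul_le_mul_of_nonneg_left h3 hK0]

theorem U_sub_Ub (hW : Wt W) (hm : ∀ x, 0 < m x) (hs : ∀ h, W (h + 1) = W h) (hG : Gin W m)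
    {K : ℝ} (hK : ∀ s : ℝ, U W m (fun _ => s) ≤ K * s ^ 2 / 2) (f : V → ℝ) :
    |U W m f - Ub W m f| ≤ K / 4 := by
  have h0 : U W m f = ∫ _ in (0 : ℝ)..1, U W m f := by simp
  have hosc := osc_le hW hm hs hG hK f
  have e0 : (fun x => f x + (0 : ℝ)) = f := by simp
  rw [h0]
  unfold Ub
  rw [← intervalIntegral.integral_sub (continuous_const.intervalIntegrable _ _)
    ((cont_shift hW hm f).intervalIntegrable _ _)]
  have := intervalIntegral.norm_integral_le_of_norm_le_const (a := (0 : ℝ)) (b := 1)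
    (f := fun s : ℝ => U W m f - U W m fun x => f x + s) (C := K / 4) fun s _ => by
      rw [Real.norm_eq_abs, abs_le]
      have h1 := hosc 0 s
      have h2 := hosc s 0
      rw [e0] at h1 h2
      constructor <;> linarith
  rw [Real.norm_eq_abs, sub_zero, abs_one, mul_one] at this
  exact this

/-- **E1, second difference**: for all real backgrounds `f` and all real `u` -/
theorem U_mid (hW : Wt W) (hm : ∀ x, 0 < m x) (hs : ∀ h, W (h + 1) = W h) (hS : Sup W)
    (hG : Gin W m) {K : ℝ} (hK : ∀ s : ℝ, U W m (fun _ => s) ≤ K * s ^ 2 / 2) (f u : V → ℝ) :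
    2 * U W m f - K ≤ U W m (f + u) + U W m (f - u) := by
  have h1 := abs_le.1 (U_sub_Ub hW hm hs hG hK f)
  have h2 := abs_le.1 (U_sub_Ub hW hm hs hG hK (f + u))
  have h3 := abs_le.1 (U_sub_Ub hW hm hs hG hK (f - u))
  have h4 := Ub_mid hW hm hS hs f u
  linarith [h1.2, h2.1, h3.1]

/-- **E1 for the partition functions** -/
theorem Z_mid (hW : Wt W) (hm : ∀ x, 0 < m x) (hs : ∀ h, W (h + 1) = W h) (hS : Sup W)
    (hG : Gin W m) {K : ℝ} (hK : ∀ s : ℝ, U W m (fun _ => s) ≤ K * s ^ 2 / 2) (f u : V → ℝ) :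
    Z W m (f + u) * Z W m (f - u) ≤ Real.exp K * Z W m f ^ 2 := by
  have h := U_mid hW hm hs hS hG hK f u
  have p0 := hW.Z_pos hm 0
  have pf := hW.Z_pos hm f
  have pi := hW.Z_pos hm (f + u)
  have ps := hW.Z_pos hm (f - u)
  unfold U at h
  rw [Real.log_div ps.ne' p0.ne', Real.log_div pi.ne' p0.ne', Real.log_div pf.ne' p0.ne'] at h
  rw [← Real.log_le_log_iff (mul_pos pi ps) (by positivity), Real.log_mul pi.ne' ps.ne',
    Real.log_mul (Real.exp_pos K).ne' (by positivity), Real.log_exp, Real.log_pow]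
  push_cast
  linarith

/-! ### exponential moments of `d = h - h'` -/

lemma gs_tilt (hm : ∀ x, 0 < m x) (f g : V → ℝ) (h : V → ℤ) :
    gs m f h * Real.exp (∑ x, g x * (h x : ℝ)) =
      Real.exp (∑ x, f x * g x + ∑ x, g x ^ 2 / (2 * m x)) * gs m (fun x => f x + g x / m x) h := by
  unfold gs
  rw [← Real.exp_add, ← Real.exp_add, ← Finset.sum_neg_distrib, ← Finset.sum_neg_distrib,
    ← Finset.sum_add_distrib, ← Finset.sum_add_distrib, ← Finset.sum_add_distrib]
  congr 1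
  refine Finset.sum_congr rfl fun x _ => ?_
  have := (hm x).ne'
  field_simp
  ring

lemma tsum_tilt (hm : ∀ x, 0 < m x) (f g : V → ℝ) :
    ∑' h : V → ℤ, W h * gs m f h * Real.exp (∑ x, g x * (h x : ℝ)) =
      Real.exp (∑ x, f x * g x + ∑ x, g x ^ 2 / (2 * m x)) * Z W m fun x => f x + g x / m x := by
  unfold Z
  rw [← tsum_mul_left]
  refine tsum_congr fun h => ?_
  rw [mul_assoc, gs_tilt hm]
  ring

/-- **E1, exponential moment**: `E_f^{x2} exp <g, h - h'> ≤ exp(∑ g²/m + K)` -/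
theorem mgf_le (hW : Wt W) (hm : ∀ x, 0 < m x) (hs : ∀ h, W (h + 1) = W h) (hS : Sup W)
    (hG : Gin W m) {K : ℝ} (hK : ∀ s : ℝ, U W m (fun _ => s) ≤ K * s ^ 2 / 2) (f g : V → ℝ) :
    (∑' h : V → ℤ, W h * gs m f h * Real.exp (∑ x, g x * (h x : ℝ))) *
        (∑' h : V → ℤ, W h * gs m f h * Real.exp (-∑ x, g x * (h x : ℝ))) ≤
      Real.exp (∑ x, g x ^ 2 / m x + K) * Z W m f ^ 2 := by
  have e1 := tsum_tilt (W := W) hm f g
  have e2 := tsum_tilt (W := W) hm f (-g)
  have e3 : ∀ h : V → ℤ, ∑ x, (-g) x * (h x : ℝ) = -∑ x, g x * (h x : ℝ) := fun h => by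
    rw [← Finset.sum_neg_distrib]
    exact Finset.sum_congr rfl fun x _ => by rw [Pi.neg_apply, neg_mul]
  simp only [e3] at e2
  rw [e1, e2]
  have h := Z_mid hW hm hs hS hG hK f fun x => g x / m x
  have e4 : (fun x => f x + (-g) x / m x) = f - fun x => g x / m x := by
    funext x
    simp only [Pi.sub_apply, Pi.neg_apply]
    ring
  have e5 : (fun x => f x + g x / m x) = f + fun x => g x / m x := rfl
  rw [e4, e5]
  have e6 : Real.exp (∑ x, f x * g x + ∑ x, g x ^ 2 / (2 * m x)) *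
      Real.exp (∑ x, f x * (-g) x + ∑ x, (-g) x ^ 2 / (2 * m x)) =
      Real.exp (∑ x, g x ^ 2 / m x) := by
    rw [← Real.exp_add]
    congr 1
    rw [← Finset.sum_add_distrib, ← Finset.sum_add_distrib, ← Finset.sum_add_distrib]
    refine Finset.sum_congr rfl fun x _ => ?_
    have := (hm x).ne'
    simp only [Pi.neg_apply]
    field_simp
    ring
  calc Real.exp (∑ x, f x * g x + ∑ x, g x ^ 2 / (2 * m x)) * Z W m (f + fun x => g x / m x) *
        (Real.exp (∑ x, f x * (-g) x + ∑ x, (-g) x ^ 2 / (2 * m x)) *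
          Z W m (f - fun x => g x / m x)) =
      Real.exp (∑ x, g x ^ 2 / m x) *
        (Z W m (f + fun x => g x / m x) * Z W m (f - fun x => g x / m x)) := by
        rw [← e6]
        ring
    _ ≤ Real.exp (∑ x, g x ^ 2 / m x) * (Real.exp K * Z W m f ^ 2) :=
        mul_le_mul_of_nonneg_left h (Real.exp_pos _).le
    _ = _ := by rw [Real.exp_add]; ring

end Vale.Agent.P159.TM.H871
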