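import Vale.Agent.P159.TM.H871.E1
import Vale.Agent.P159.TM.H551.Mom
import Vale.Agent.P159.T1.H897.Fkg

/-!
`E1` with the exact constant `K = κ(W,m) = ∑ m - Var₀(∑ m h)` (`V κ` of the plan), and the
conditions for gradient weights `∏ e, w e (h (t e) - h (s e))` with log-concave even kernels.
-/

open Filter Topology Finset

namespace Vale.Agent.P159.TM.H871

variable {V : Type*} [Fintype V] {W : (V → ℤ) → ℝ} {m : V → ℝ}

/-- second moment of `∑ m f h` at background `0` -/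
noncomputable def Q0 (W : (V → ℤ) → ℝ) (m f : V → ℝ) : ℝ :=
  (∑' h : V → ℤ, W h * gs m 0 h * (∑ x, m x * f x * (h x : ℝ)) ^ 2) / Z W m 0

/-- `<1, U''(0) 1> = ∑ m - Var₀(∑ m h)` -/
noncomputable def kap (W : (V → ℤ) → ℝ) (m : V → ℝ) : ℝ := ∑ x, m x - Q0 W m fun _ => 1

lemma mg_eq (hm : ∀ x, 0 < m x) (f : V → ℝ) (t : ℝ) :
    H551.mg (fun h : V → ℤ => W h * gs m 0 h) (fun h => ∑ x, m x * f x * (h x : ℝ)) t =
      Real.exp (t ^ 2 * (∑ x, m x * f x ^ 2) / 2) * Z W m (t • f) := by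
  have h := tsum_tilt (W := W) hm 0 fun x => t * (m x * f x)
  unfold H551.mg
  have e1 : ∀ h : V → ℤ, ∑ x, t * (m x * f x) * (h x : ℝ) = t * ∑ x, m x * f x * (h x : ℝ) :=
    fun h => by
      rw [Finset.mul_sum]
      exact Finset.sum_congr rfl fun x _ => by ring
  simp only [e1] at h
  rw [h]
  congr 2
  · rw [Finset.mul_sum, Finset.sum_div, ← Finset.sum_add_distrib]
    refine Finset.sum_congr rfl fun x _ => ?_
    have := (hm x).ne'
    simp only [Pi.zero_apply]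
    field_simp
    ring
  · funext x
    have := (hm x).ne'
    simp only [Pi.zero_apply, Pi.smul_apply, smul_eq_mul]
    field_simp
    ring

/-- **U(f) ≤ <f, U''(0) f>/2** -/
theorem U_quad (hW : Wt W) (hm : ∀ x, 0 < m x) (hev : ∀ h, W (-h) = W h) (hG : Gin W m)
    (f : V → ℝ) : U W m f ≤ (∑ x, m x * f x ^ 2 - Q0 W m f) / 2 := by
  set w : (V → ℤ) → ℝ := fun h => W h * gs m 0 h with hw
  set l : (V → ℤ) → ℝ := fun h => ∑ x, m x * f x * (h x : ℝ) with hl
  have w0 : ∀ h, 0 ≤ w h := fun h => mul_nonneg (hW.nonneg h) (gs_pos m 0 h).le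
  have hmg : ∀ t, H551.mg w l t = Real.exp (t ^ 2 * (∑ x, m x * f x ^ 2) / 2) * Z W m (t • f) :=
    mg_eq hm f
  have hs : ∀ t : ℝ, Summable fun h => w h * Real.exp (t * l h) := by
    intro t
    have h1 : Summable fun h => Real.exp (∑ x, (0 : V → ℝ) x * (t * (m x * f x)) +
        ∑ x, (t * (m x * f x)) ^ 2 / (2 * m x)) * (W h * gs m
          (fun x => (0 : V → ℝ) x + t * (m x * f x) / m x) h) :=
      (hW.summable hm _).mul_left _
    refine h1.congr fun h => ?_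
    have h2 := gs_tilt hm (0 : V → ℝ) (fun x => t * (m x * f x)) h
    have e1 : ∑ x, t * (m x * f x) * (h x : ℝ) = t * l h := by
      rw [hl, Finset.mul_sum]
      exact Finset.sum_congr rfl fun x _ => by ring
    rw [e1] at h2
    calc _ = W h * (Real.exp (∑ x, (0 : V → ℝ) x * (t * (m x * f x)) +
        ∑ x, (t * (m x * f x)) ^ 2 / (2 * m x)) * gs m
          (fun x => (0 : V → ℝ) x + t * (m x * f x) / m x) h) := by ring
      _ = _ := by rw [← h2, hw]; ring
  have hZ0 : H551.mg w l 0 = Z W m 0 := by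
    rw [hmg 0]
    simp
  have hZ : 0 < H551.mg w l 0 := by
    rw [hZ0]
    exact hW.Z_pos hm 0
  have hev' : ∀ t, H551.mg w l (-t) = H551.mg w l t := by
    intro t
    rw [hmg, hmg, neg_smul, Z_neg hev, neg_sq]
  have four : ∀ t, H551.mg w l t ^ 4 ≤ H551.mg w l 0 ^ 3 * H551.mg w l (2 * t) := by
    intro t
    rw [hZ0, hmg, hmg]
    have h := hG (t • f) (t • f)
    rw [sub_self] at h
    have e2 : t • f + t • f = (2 * t) • f := by rw [mul_smul, two_smul]
    rw [e2] at h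
    have h3 : Z W m (t • f) ^ 4 ≤ Z W m 0 ^ 3 * Z W m ((2 * t) • f) := by
      calc Z W m (t • f) ^ 4 = Z W m (t • f) ^ 2 * Z W m (t • f) ^ 2 := by ring
        _ ≤ _ := h
        _ = _ := by ring
    have e3 : Real.exp (t ^ 2 * (∑ x, m x * f x ^ 2) / 2) ^ 4 =
        Real.exp ((2 * t) ^ 2 * (∑ x, m x * f x ^ 2) / 2) := by
      rw [← Real.exp_nat_mul]
      congr 1
      push_cast
      ring
    rw [mul_pow, e3]
    calc Real.exp ((2 * t) ^ 2 * (∑ x, m x * f x ^ 2) / 2) * Z W m (t • f) ^ 4 ≤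
        Real.exp ((2 * t) ^ 2 * (∑ x, m x * f x ^ 2) / 2) *
          (Z W m 0 ^ 3 * Z W m ((2 * t) • f)) :=
          mul_le_mul_of_nonneg_left h3 (Real.exp_pos _).le
      _ = _ := by ring
  have h := H551.exp_half_le w0 hs hev' hZ four 1
  rw [hZ0, hmg 1, one_smul, one_pow, one_mul] at h
  have p0 := hW.Z_pos hm 0
  have pf := hW.Z_pos hm f
  have h4 : Q0 W m f = (∑' h, w h * l h ^ 2) / Z W m 0 := rfl
  rw [← h4, mul_div_assoc] at h
  have h5 := Real.log_le_log (Real.exp_pos _) h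
  rw [Real.log_exp, Real.log_mul (Real.exp_pos _).ne' (div_pos pf p0).ne', Real.log_exp] at h5
  unfold U
  linarith

/-- the constants -/
theorem hK_kap (hW : Wt W) (hm : ∀ x, 0 < m x) (hev : ∀ h, W (-h) = W h) (hG : Gin W m)
    (s : ℝ) : U W m (fun _ => s) ≤ kap W m * s ^ 2 / 2 := by
  refine (U_quad hW hm hev hG _).trans_eq ?_
  have e1 : Q0 W m (fun _ => s) = s ^ 2 * Q0 W m fun _ => 1 := by
    unfold Q0
    rw [← mul_div_assoc, ← tsum_mul_left]
    congr 1
    refine tsum_congr fun h => ?_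
    have : ∑ x, m x * s * (h x : ℝ) = s * ∑ x, m x * 1 * (h x : ℝ) := by
      rw [Finset.mul_sum]
      exact Finset.sum_congr rfl fun x _ => by ring
    rw [this]
    ring
  rw [e1, kap, ← Finset.sum_mul]
  ring

/-- **E1 (oscillation)** with `K = κ` -/
theorem osc_kap (hW : Wt W) (hm : ∀ x, 0 < m x) (hs : ∀ h, W (h + 1) = W h)
    (hev : ∀ h, W (-h) = W h) (hG : Gin W m) (f : V → ℝ) (s t : ℝ) :
    |U W m (fun x => f x + s) - U W m (fun x => f x + t)| ≤ kap W m / 4 := by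
  have h1 := osc_le hW hm hs hG (hK_kap hW hm hev hG) f s t
  have h2 := osc_le hW hm hs hG (hK_kap hW hm hev hG) f t s
  rw [abs_le]
  constructor <;> linarith

theorem kap_nonneg (hW : Wt W) (hm : ∀ x, 0 < m x) (hs : ∀ h, W (h + 1) = W h)
    (hev : ∀ h, W (-h) = W h) (hG : Gin W m) : 0 ≤ kap W m := by
  have := (abs_nonneg _).trans (osc_kap hW hm hs hev hG 0 0 0)
  linarith

/-- **E1 (second difference)** with `K = κ` -/
theorem mid_kap (hW : Wt W) (hm : ∀ x, 0 < m x) (hs : ∀ h, W (h + 1) = W h) (hS : Sup W)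
    (hev : ∀ h, W (-h) = W h) (hG : Gin W m) (f u : V → ℝ) :
    2 * U W m f - kap W m ≤ U W m (f + u) + U W m (f - u) :=
  U_mid hW hm hs hS hG (hK_kap hW hm hev hG) f u

/-- **E1 (exponential moment of `h - h'`)** with `K = κ`, every real background `f` -/
theorem mgf_kap (hW : Wt W) (hm : ∀ x, 0 < m x) (hs : ∀ h, W (h + 1) = W h) (hS : Sup W)
    (hev : ∀ h, W (-h) = W h) (hG : Gin W m) (f g : V → ℝ) :
    (∑' h : V → ℤ, W h * gs m f h * Real.exp (∑ x, g x * (h x : ℝ))) *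
        (∑' h : V → ℤ, W h * gs m f h * Real.exp (-∑ x, g x * (h x : ℝ))) ≤
      Real.exp (∑ x, g x ^ 2 / m x + kap W m) * Z W m f ^ 2 :=
  mgf_le hW hm hs hS hG (hK_kap hW hm hev hG) f g

/-! ### gradient weights -/

section graph

variable {E : Type*} [Fintype E] {s t : E → V} {w : E → ℤ → ℝ}

theorem wt_Wk (w0 : ∀ e n, 0 ≤ w e n) (wb : ∀ e, ∃ C, ∀ n, w e n ≤ C) (w1 : ∀ e, 0 < w e 0) :
    Wt (T1.H897.Wk s t w) where
  nonneg := fun h => T1.H897.Wk_nonneg w0 h
  bdd := by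
    choose C hC using wb
    exact ⟨∏ e, C e, fun h => Finset.prod_le_prod (fun e _ => w0 e _) fun e _ => hC e _⟩
  pos := ⟨0, Finset.prod_pos fun e _ => by simpa using w1 e⟩

theorem sup_Wk (w0 : ∀ e n, 0 ≤ w e n) (hw : ∀ e, T1.H897.LogC (w e)) :
    Sup (T1.H897.Wk s t w) := T1.H897.hol_Wk w0 hw

omit [Fintype V] in
theorem shift_Wk (h : V → ℤ) : T1.H897.Wk s t w (h + 1) = T1.H897.Wk s t w h := by
  unfold T1.H897.Wk
  refine Finset.prod_congr rfl fun e _ => ?_
  simp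

omit [Fintype V] in
theorem even_Wk (we : ∀ e n, w e (-n) = w e n) (h : V → ℤ) :
    T1.H897.Wk s t w (-h) = T1.H897.Wk s t w h := by
  unfold T1.H897.Wk
  refine Finset.prod_congr rfl fun e _ => ?_
  rw [← we e]
  congr 1
  simp only [Pi.neg_apply]
  ring

end graph

end Vale.Agent.P159.TM.H871
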