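import Mathlib

/-!
Heights `h : V → ℤ` on a finite set with masses `m x > 0` and real background `f : V → ℝ`:
the partition function `Z(f) = ∑ W h exp(-∑ (m x / 2) (h x - f x)^2)`. Summability, positivity,
continuity, periodicity.
-/

open Filter Topology Finset

namespace Vale.Agent.P159.TM.H871

variable {V : Type*} [Fintype V]

/-- the Gaussian factor -/
noncomputable def gs (m : V → ℝ) (f : V → ℝ) (h : V → ℤ) : ℝ :=
  Real.exp (-∑ x, m x / 2 * ((h x : ℝ) - f x) ^ 2)

/-- the partition function with weight `W`, masses `m`, background `f` -/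
noncomputable def Z (W : (V → ℤ) → ℝ) (m : V → ℝ) (f : V → ℝ) : ℝ := ∑' h : V → ℤ, W h * gs m f h

/-- minus the logarithm of the normalised partition function -/
noncomputable def U (W : (V → ℤ) → ℝ) (m : V → ℝ) (f : V → ℝ) : ℝ :=
  -Real.log (Z W m f / Z W m 0)

theorem summable_pi_prod {g : V → ℤ → ℝ} (h0 : ∀ x n, 0 ≤ g x n) (hs : ∀ x, Summable (g x)) :
    Summable fun h : V → ℤ => ∏ x, g x (h x) := by
  classical
  refine summable_of_sum_le (c := ∏ x, ∑' n, g x n) (fun h => Finset.prod_nonneg fun x _ => h0 x _)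
    fun u => ?_
  let t : V → Finset ℤ := fun x => u.image fun h => h x
  have hsub : u ⊆ Fintype.piFinset t := by
    intro h hh
    rw [Fintype.mem_piFinset]
    intro x
    exact Finset.mem_image_of_mem (fun h : V → ℤ => h x) hh
  calc ∑ h ∈ u, ∏ x, g x (h x) ≤ ∑ h ∈ Fintype.piFinset t, ∏ x, g x (h x) :=
        Finset.sum_le_sum_of_subset_of_nonneg hsub fun h _ _ => Finset.prod_nonneg fun x _ => h0 x _
    _ = ∏ x, ∑ n ∈ t x, g x n := (Finset.prod_univ_sum t g).symm
    _ ≤ ∏ x, ∑' n, g x n := Finset.prod_le_prod (fun x _ => Finset.sum_nonneg fun n _ => h0 x n)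
        fun x _ => (hs x).sum_le_tsum _ fun n _ => h0 x n

lemma summable_exp_abs {c : ℝ} (hc : 0 < c) : Summable fun n : ℤ => Real.exp (-c * |(n : ℝ)|) := by
  have h : Summable fun n : ℕ => Real.exp ((n : ℝ) * (-c)) :=
    Real.summable_exp_nat_mul_iff.2 (by linarith)
  refine summable_int_iff_summable_nat_and_neg.2 ⟨?_, ?_⟩
  · refine h.congr fun n => ?_
    congr 1
    push_cast
    rw [abs_of_nonneg (Nat.cast_nonneg n)]
    ring
  · refine h.congr fun n => ?_
    congr 1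
    push_cast
    rw [abs_neg, abs_of_nonneg (Nat.cast_nonneg n)]
    ring

/-- one-site Gaussian sums, with a bound uniform for the background in a bounded set -/
lemma g1_le {c a R : ℝ} (hc : 0 < c) (ha : |a| ≤ R) (n : ℤ) :
    Real.exp (-(c * ((n : ℝ) - a) ^ 2)) ≤
      Real.exp (c * (R + 1)) * Real.exp (-c * |(n : ℝ)|) := by
  rw [← Real.exp_add]
  apply Real.exp_le_exp.2
  have h1 : |(n : ℝ)| ≤ |(n : ℝ) - a| + |a| := by
    have := abs_add_le ((n : ℝ) - a) a
    simpa using this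
  have h2 : |(n : ℝ) - a| ≤ ((n : ℝ) - a) ^ 2 + 1 := by
    have := sq_abs ((n : ℝ) - a)
    nlinarith [sq_nonneg (|(n : ℝ) - a| - 1), abs_nonneg ((n : ℝ) - a)]
  have h3 : |(n : ℝ)| ≤ ((n : ℝ) - a) ^ 2 + 1 + R := by linarith
  nlinarith [mul_le_mul_of_nonneg_left h3 hc.le]

lemma gs_eq_prod (m f : V → ℝ) (h : V → ℤ) :
    gs m f h = ∏ x, Real.exp (-(m x / 2 * ((h x : ℝ) - f x) ^ 2)) := by
  rw [gs, ← Real.exp_sum, Finset.sum_neg_distrib]

/-- the dominating function -/
noncomputable def dom (m : V → ℝ) (R : ℝ) (h : V → ℤ) : ℝ :=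
  ∏ x, (Real.exp (m x / 2 * (R + 1)) * Real.exp (-(m x / 2) * |(h x : ℝ)|))

lemma gs_le_dom {m f : V → ℝ} {R : ℝ} (hm : ∀ x, 0 < m x) (hf : ∀ x, |f x| ≤ R) (h : V → ℤ) :
    gs m f h ≤ dom m R h := by
  rw [gs_eq_prod, dom]
  refine Finset.prod_le_prod (fun x _ => (Real.exp_pos _).le) fun x _ => ?_
  exact g1_le (half_pos (hm x)) (hf x) (h x)

lemma summable_dom {m : V → ℝ} (hm : ∀ x, 0 < m x) (R : ℝ) : Summable (dom m R) := by
  refine summable_pi_prod (g := fun x n => Real.exp (m x / 2 * (R + 1)) *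
    Real.exp (-(m x / 2) * |(n : ℝ)|)) (fun x n => (mul_pos (Real.exp_pos _) (Real.exp_pos _)).le)
    fun x => ?_
  exact (summable_exp_abs (half_pos (hm x))).mul_left _

lemma dom_nonneg (m : V → ℝ) (R : ℝ) (h : V → ℤ) : 0 ≤ dom m R h :=
  Finset.prod_nonneg fun _ _ => (mul_pos (Real.exp_pos _) (Real.exp_pos _)).le

lemma gs_pos (m f : V → ℝ) (h : V → ℤ) : 0 < gs m f h := Real.exp_pos _

lemma exists_bd (f : V → ℝ) : ∃ R : ℝ, ∀ x, |f x| ≤ R :=
  ⟨∑ x, |f x|, fun x => Finset.single_le_sum (f := fun x => |f x|) (fun y _ => abs_nonneg (f y))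
    (Finset.mem_univ x)⟩

lemma summable_gs {m : V → ℝ} (hm : ∀ x, 0 < m x) (f : V → ℝ) : Summable (gs m f) := by
  obtain ⟨R, hR⟩ := exists_bd f
  exact Summable.of_nonneg_of_le (fun h => (gs_pos m f h).le) (gs_le_dom hm hR) (summable_dom hm R)

/-- standing assumptions on the weight: nonnegative, bounded, positive somewhere -/
structure Wt (W : (V → ℤ) → ℝ) : Prop where
  nonneg : ∀ h, 0 ≤ W h
  bdd : ∃ C, ∀ h, W h ≤ C
  pos : ∃ h, 0 < W h

variable {W : (V → ℤ) → ℝ} {m : V → ℝ}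

lemma Wt.summable (hW : Wt W) (hm : ∀ x, 0 < m x) (f : V → ℝ) :
    Summable fun h => W h * gs m f h := by
  obtain ⟨C, hC⟩ := hW.bdd
  exact Summable.of_nonneg_of_le (fun h => mul_nonneg (hW.nonneg h) (gs_pos m f h).le)
    (fun h => mul_le_mul_of_nonneg_right (hC h) (gs_pos m f h).le) ((summable_gs hm f).mul_left C)

lemma Wt.Z_pos (hW : Wt W) (hm : ∀ x, 0 < m x) (f : V → ℝ) : 0 < Z W m f := by
  obtain ⟨h, hh⟩ := hW.pos
  exact (hW.summable hm f).tsum_pos (fun h => mul_nonneg (hW.nonneg h) (gs_pos m f h).le) h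
    (mul_pos hh (gs_pos m f h))

lemma Wt.continuous_Z (hW : Wt W) (hm : ∀ x, 0 < m x) : Continuous (Z W m) := by
  rw [continuous_iff_continuousAt]
  intro f0
  obtain ⟨R, hR⟩ := exists_bd f0
  obtain ⟨C, hC⟩ := hW.bdd
  have hC0 : 0 ≤ C := by
    obtain ⟨h, hh⟩ := hW.pos
    exact hh.le.trans (hC h)
  refine tendsto_tsum_of_dominated_convergence (bound := fun h => C * dom m (R + 1) h)
    ((summable_dom hm _).mul_left C) (fun h => ?_) ?_
  · have : Continuous fun f : V → ℝ => W h * gs m f h := by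
      unfold gs
      fun_prop
    exact this.tendsto f0
  · have hn : ∀ᶠ f : V → ℝ in 𝓝 f0, ∀ x, |f x| ≤ R + 1 := by
      have h1 : ∀ᶠ f : V → ℝ in 𝓝 f0, f ∈ Metric.ball f0 1 := Metric.ball_mem_nhds f0 one_pos
      filter_upwards [h1] with f hf x
      have h2 : dist (f x) (f0 x) ≤ dist f f0 := dist_le_pi_dist f f0 x
      rw [Metric.mem_ball] at hf
      rw [Real.dist_eq] at h2
      have h3 := hR x
      have h4 : |f x| ≤ |f x - f0 x| + |f0 x| := by
        have := abs_add_le (f x - f0 x) (f0 x)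
        simpa using this
      linarith
    filter_upwards [hn] with f hf h
    rw [Real.norm_of_nonneg (mul_nonneg (hW.nonneg h) (gs_pos m f h).le)]
    exact mul_le_mul (hC h) (gs_le_dom hm hf h) (gs_pos m f h).le hC0

lemma Wt.continuous_U (hW : Wt W) (hm : ∀ x, 0 < m x) : Continuous (U W m) := by
  unfold U
  refine (Continuous.log ((hW.continuous_Z hm).div_const _) fun f => ?_).neg
  exact (div_pos (hW.Z_pos hm f) (hW.Z_pos hm 0)).ne'

lemma Wt.U_zero (hW : Wt W) (hm : ∀ x, 0 < m x) : U W m 0 = 0 := by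
  rw [U, div_self (hW.Z_pos hm 0).ne', Real.log_one, neg_zero]

/-- integer shifts -/
lemma gs_shift (m f : V → ℝ) (k : V → ℤ) (h : V → ℤ) :
    gs m (fun x => f x + k x) (h + k) = gs m f h := by
  unfold gs
  congr 2
  refine Finset.sum_congr rfl fun x _ => ?_
  simp only [Pi.add_apply]
  push_cast
  ring

lemma Z_shift (hs : ∀ h, W (h + 1) = W h) (f : V → ℝ) : Z W m (fun x => f x + 1) = Z W m f := by
  unfold Z
  rw [← (Equiv.addRight (1 : V → ℤ)).tsum_eq]
  refine tsum_congr fun h => ?_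
  simp only [Equiv.coe_addRight]
  rw [hs h]
  congr 1
  have := gs_shift m f 1 h
  simpa using this

lemma Z_neg (hs : ∀ h, W (-h) = W h) (f : V → ℝ) : Z W m (-f) = Z W m f := by
  unfold Z
  rw [← (Equiv.neg (V → ℤ)).tsum_eq]
  refine tsum_congr fun h => ?_
  simp only [Equiv.neg_apply]
  rw [hs h]
  congr 1
  unfold gs
  congr 2
  refine Finset.sum_congr rfl fun x _ => ?_
  simp only [Pi.neg_apply]
  push_cast
  ring

end Vale.Agent.P159.TM.H871
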